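import Vale.Agent.P014U.Ev.St
import Vale.Agent.P014U.Rc.Glue
import Vale.Agent.P014U.Dr.Cy

/-! # P014U, block EV: the classes of the symbols on the modular curves -/

set_option autoImplicit false
set_option linter.all false

open scoped Classical
open CongruenceSubgroup

noncomputable section

namespace Vale.Agent.P014U.Ev

open Vale.Agent.P019P P027M.K Vale.Agent.P004H.H666
open Vale.Agent.P022 (Qb GQ)
open Vale.Agent.P027M.M (FF L cv)
open P014T.Dc (jL)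

variable [Pp]

/-- `z` is a cocycle on `Hm l` of the class of the symbol `{u, v}` modulo `pp ^ n`, pushed to the
curve along `(x, y)` -/
def Kz : Rc.KZ := fun X A B x y l n u v z => ∀ [CFF Qb (L (Gamma l))]
  (hD : 4 * ((A : ℤ) : ℚ) ^ 3 + 27 * ((B : ℤ) : ℚ) ^ 2 ≠ 0) (σ : GQ →* SL Qb (L (Gamma l)))
  (x' y' u' v' : L (Gamma l))
  (nn : (crv (((A : ℤ) : ℚ) : L (Gamma l)) (((B : ℤ) : ℚ) : L (Gamma l))).Nonsingular x' y'),
  Rc.Ga X σ → (x' : FF) = x → (y' : FF) = y → (u' : FF) = u → (v' : FF) = v →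
    Pk hD σ (P014T.Dr.Hm l) (jL _) (pt nn) n u' v' z

theorem evq_of (H : EVP) : Rc.EVQ Kz := by
  intro X N G a A B w I l n _ x y hD σ r p Nl lv nl ga
  obtain ⟨e, o, H⟩ := H A B hD n
  refine ⟨e, o, fun u v z kz ι P h J _ s q W tr iv R t R' f Av mR mt t0 t1 hR hf => ?_⟩
  have nn : (crv (((A : ℤ) : ℚ) : L (Gamma l)) (((B : ℤ) : ℚ) : L (Gamma l))).Nonsingular x y := by
    have := p.toPw.nsF r
    rwa [← P004M.TE.crv_map (algebraMap (L (Gamma l)) FF) (map_ratCast _ _) (map_ratCast _ _),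
      show (x : FF) = algebraMap (L (Gamma l)) FF x from rfl,
      show (y : FF) = algebraMap (L (Gamma l)) FF y from rfl,
      WeierstrassCurve.Affine.map_nonsingular _ (algebraMap (L (Gamma l)) FF).injective] at this
  obtain ⟨Q, hQ⟩ := exists_pole (P014T.Dc.jL_ne (Gamma l))
  have jQ : jL (Gamma l) ∉ Q.1 := fun m => ((mem_iff_ord _ _).1 m).elim
    (fun e => P014T.Dc.jL_ne _ 0 (e.trans (map_zero _).symm)) hQ.not_ge
  have xQ : x ∉ Q.1 :=
    ((P014T.Pu.itg_map (algebraMap (L (Gamma l)) FF)).1 (p.itgF r P014T.Dc.cv_jF)).pole Q jQ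
  have pe (S : P004M.TE.Pt A B) (Q) : pm (a := (A : ℤ)) (b := (B : ℤ)) x y S Q = Rc.pb x y S Q := by
    cases S <;> rfl
  exact H _ _ h.fd σ _ _ x y u v nn z J s q W R t R' f Av (Ah.emb_AA ι)
    (fun k => by
      obtain ⟨c, rfl⟩ := P014T.Pu.alg_const k
      exact xQ (Q.2.1 _)) ⟨Q, jQ⟩
    (fun g => ⟨Subtype.ext ((ga g x).trans (P014T.Pu.Rq.gal p.xq X g)),
      Subtype.ext ((ga g y).trans (P014T.Pu.Rq.gal p.yq X g))⟩)
    ((P014T.Dr.Hm_open lv.pos.ne').mem_nhds (one_mem _))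
    (fun g m => P014T.Dr.Hm_le nl m _ (Sy.ex_prim' n).pow_eq_one) (kz hD σ x y u v nn ga rfl rfl rfl rfl)
    tr iv mR mt t0 t1 hR hf.ne hf.fx hf.inv hf.cu fun Q m => by rw [pe, pe]; exact hf.dv Q m

end Vale.Agent.P014U.Ev
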