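import Vale.Agent.P014U.Ev.Lk
import Vale.Agent.P014T.Ev.Out

/-! # P014U: from the evaluation formula to the symbol (helper84) -/

set_option linter.all false

open scoped Classical

noncomputable section

namespace Vale.Agent.P014U.Ev

open Vale.Agent.P019P P025H492 P027M.K P014T.Kc Function Filter Topology
open P014T.Ts hiding sub_zero ev
open Vale.Agent.P022 (Qb GQ)
open Vale.Agent.P014U.X4S.Ga (K O Z2 B2 d2)
open Vale.Agent.P014U.X4S.Aq (cy O_of O_mul O_cy O_pow)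
open Vale.Agent.P014U.X4F.Rc (hn hn_mul)
open Sy (ex O_z Ds Tw Lc)

variable [Pp]

namespace Ou

export Vale.Agent.P014T.Ev.Ou (ev_p dn ev_pl inj lf_mem ta_ov unit)

variable {n : ℕ}

theorem alg {w t A B c₁ c₂ g k l : K} (hw : w ∈ O) (ht : t ∈ O) (hA : A ∈ O) (hB : B ∈ O)
    (h1 : c₁ ∈ O) (hg : g ∈ O) (e : t * c₂ = 1) (hk : k - A * (c₂ * hn n) ∈ O)
    (hl : l - B * (c₁ * hn n) ∈ O) (h : hn n * (g * c₁ - c₂) ∈ O) :
    w * t * k * (g * (pp ^ n * l)) - w * (A * B * (c₂ * hn n)) ∈ O := by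
  obtain ⟨x, hx, rfl⟩ : ∃ x ∈ O, k = A * (c₂ * hn n) + x := ⟨_, hk, by ring⟩
  obtain ⟨y, hy, rfl⟩ : ∃ y ∈ O, l = B * (c₁ * hn n) + y := ⟨_, hl, by ring⟩
  refine O_of (add_mem (add_mem (O_mul (O_mul hw (O_mul hA hB)) h) (O_mul (O_mul hw (O_mul hA hg)) hy))
    (O_mul (O_mul (O_mul hw (O_mul ht hg)) (add_mem (O_mul hB h1) (O_mul (O_pow n) hy))) hx)) ?_
  linear_combination w * A * g * (B * c₁ * hn n + y) * hn n * pp ^ n * e +
    (w * A * g * (B * c₁ * hn n + y) + w * t * x * g * B * c₁) * hn_mul n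

/-- explicit roots give the Kummer cocycle -/
theorem ku_of {C X : Type} [Field C] {Φ : Sy.Fd C} {α : GQ → X → X} {S : Finset X} {a β : X → C}
    {κ : GQ → X → K} (d : Ds Φ.D α S) (h0 : ∀ y ∈ S, β y ≠ 0 ∧ β y ∈ Φ.A ∧ β y ^ pp ^ n = a y)
    (h : ∀ g ∈ Φ.D, ∀ y ∈ S, (pp : K) ^ n * κ g y ∈ O ∧ Φ.ρ g (β y) = Φ.e (ex (κ g y)) * β (α g y)) :
    a ∈ Φ.G α S ∧ ∃ k, Φ.Ku α S n a k ∧ ∀ g ∈ Φ.D, ∀ y ∈ S, k g y - κ g y ∈ O := by
  have G : a ∈ Φ.G α S := fun y l => by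
    rw [← (h0 y l).2.2]
    refine ⟨pow_ne_zero _ (h0 y l).1, pow_mem (h0 y l).2.1 _, fun g m => ?_⟩
    rw [map_pow, (h g m y l).2, mul_pow, Φ.ex_rt.2 (h g m y l).1, one_mul,
      (h0 _ (d.mem g m y l)).2.2]
  refine ⟨G, _, Sy.Fd.ku_kp d G fun y l => (h0 y l).2.2, fun g m y l => Sy.ex_eq.1 (Φ.e.injective ?_)⟩
  rw [Sy.Fd.kp, (h g m y l).2, mul_div_cancel_right₀ _ (h0 _ (d.mem g m y l)).1,
    Φ.ex_lg (Φ.ex_rt.2 (h g m y l).1)]

section tr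

variable {H : Subgroup GQ} {J : Type} {s : J → GQ} {p : GQ → J → J}

theorem cy_ta (hζ : ∀ g ∈ H, g (ex (hn n)) = ex (hn n)) (t : Tr ⊤ H s p) (g : GQ) (i : J) :
    hn n * (cy g * cy (s i) - cy (s (p g i))) ∈ O := by
  have := hζ _ (t.ta_mem (x := g) trivial i)
  rw [Sy.ex_cy, Sy.ex_eq] at this
  rw [← map_mul, ← ta_eq, map_mul]
  exact O_of (O_mul (O_cy (s (p g i))) this) (by ring)

theorem cy_inv (g : GQ) : (cy g)⁻¹ * cy g = 1 := by rw [← map_inv, ← map_mul, inv_mul_cancel, map_one]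

theorem O_inv (g : GQ) : (cy g)⁻¹ ∈ O := map_inv cy g ▸ O_cy _

end tr

variable {F M : Type} [Field F] [Field M] [Algebra Qb F] [Algebra Qb M] [Algebra F M]
  [IsScalarTower Qb F M] [CFF Qb F] [CFF Qb M] [FiniteDimensional F M] {σ : GQ →* SL Qb F}
  {Γ N : Subgroup (SL Qb M)} {Y : Set (Plk Qb M)} {D H : Subgroup GQ} {J : Type} {s : J → GQ}
  {p : GQ → J → J} {r : J → SL Qb M} {R : Finset (Plk Qb M)} {θ x : SL Qb M} {P : Plk Qb M}
  {lf : SL Qb M → Plk Qb M → SL Qb M} {α : Un M} {a : SL Qb M → ℤ} {u : F}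

theorem root (A : Fm Γ N Y) (L : Lk σ Γ N) (h0 : ∀ P ∈ Y, ord P (vv α) = 0)
    (hu : vv (pp ^ n • α) = algebraMap F M u) (h : θ ∈ Γ) (l : P ∈ Y) :
    vl P (vv (θ • α)) ≠ 0 ∧ vl P (vv (θ • α)) ^ pp ^ n = vl (down F P) ((σ (rq θ)).1 u) := by
  have o := unit A h0 h l
  have v := val_vl o.ge
  refine ⟨v.ne_zero (vv_ne _) o, (vl_eq (val_down ?_)).symm⟩
  rw [← L.up θ h, ← hu, vv_nsmul, map_pow]
  exact v.pow _

theorem move (A : Fm Γ N Y) (t : Tr ⊤ H s p) (hr : ∀ i, r i ∈ Γ ∧ rq (r i) = s i)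
    (ha : Rt (ov Γ H) (ic M (xc (hn n))) α a) (h0 : ∀ P ∈ Y, ord P (vv α) = 0) (h : θ ∈ Γ)
    (l : P ∈ Y) (i : J) : rq θ (vl P (vv (r i • α))) =
      ex (a (ta r (fun x => p (rq x)) θ i) * (cy (s (p (rq θ) i)) * hn n)) *
        vl (θ • P) (vv (r (p (rq θ) i) • α)) := by
  have v : Val (θ • P) (vv (θ • r i • α)) (rq θ (vl P (vv (r i • α)))) :=
    (val_vl (unit A h0 (hr i).1 l).ge).semi (res0_spec θ)
  rw [← mul_smul, ← ta_eq (p := fun x => p (rq x)), mul_smul,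
    eq_add_of_sub_eq (ha _ (ta_ov t hr h i)), smul_add, sm_z, ic_sm, xc_sm, (hr _).2, ← map_zsmul,
    ← map_zsmul, zsmul_eq_mul, vv_add] at v
  exact v.unique ((Val.const _ _).mul (val_vl (unit A h0 (hr _).1 (A.st _ h P l)).ge))

end Ou

open Ou in
/-- **from the evaluation formula to the symbol** -/
theorem out : OUT := by
  intro F M C _ _ _ _ _ _ _ _ _ _ _ Φ σ Γ N Y n H J _ s p W r α β a b u v Av R lf c E hA A q L hH hζ
    t hW hr ha hb hu hv h0 hAv ρ hR hs c2 cN cs z key e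
  choose lt l1 l2 using L.sur
  have lo : ∀ g ∈ Φ.D, lt g ∈ ov Γ Φ.D := fun g m => ⟨l1 g, Subgroup.mem_comap.2 ((l2 g).symm ▸ m)⟩
  have : ∀ Q, ∃ P, Q ∈ Av.support → P ∈ R ∧ down F P = Q := fun Q => by
    by_cases h : Q ∈ Av.support
    · exact (hs Q h).imp fun _ k _ => k
    · exact (exists_over (L := M) Q).imp fun _ _ k => (h k).elim
  choose rp hp using this
  have sm : ∀ g ∈ Φ.D, ∀ Q ∈ Av.support, σ g • Q ∈ Av.support := fun g m Q l => by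
    rwa [Finsupp.mem_support_iff, hAv g m, ← Finsupp.mem_support_iff]
  have rm : ∀ g ∈ Φ.D, ∀ Q ∈ Av.support, rp (σ g • Q) = lf (lt g) (rp Q) • rp Q := fun g m Q l => by
    have k := lf_mem A ρ (lo g m) (hp Q l).1
    refine inj q ρ (hp _ (sm g m Q l)).1 (ρ.mem _ (lo g m) _ (hp Q l).1) ?_
    rw [(hp _ (sm g m Q l)).2, dn L k.1, k.2, l2, (hp Q l).2]
  have ms : ∀ {y : Plk Qb F × J}, y ∈ Av.support ×ˢ Finset.univ ↔ y.1 ∈ Av.support :=
    Finset.mem_product.trans (and_iff_left (Finset.mem_univ _))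
  have d : Ds Φ.D (fun g (y : Plk Qb F × J) => (σ g • y.1, p g y.2)) (Av.support ×ˢ Finset.univ) :=
    have mu : ∀ g h (y : Plk Qb F × J), (σ (g * h) • y.1, p (g * h) y.2) =
        (σ g • σ h • y.1, p g (p h y.2)) := fun g h y => by
      rw [map_mul, mul_smul, t.mul trivial trivial]
    ⟨fun g m y l => ms.2 (sm g m _ (ms.1 l)), fun y _ => by rw [map_one, one_smul, t.one],
      fun g _ h _ y _ => mu g h y, fun y _ => Lc.of_nhds ((ev_pl L y.1).and (ev_p hH t y.2))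
        fun g _ w _ k => by rw [mu, k.1, k.2]⟩
  have tw : Tw Φ.D (fun g (y : Plk Qb F × J) => (σ g • y.1, p g y.2)) (Av.support ×ˢ Finset.univ) n
      fun y => (Av y.1 * W y.2 : ℤ) * (cy (s y.2))⁻¹ :=
    Tw.wt ⟨fun y _ => O_inv _, fun g _ y _ => O_of (O_mul (O_mul (O_inv (s (p g y.2)))
      (O_inv (s y.2))) (cy_ta hζ t g y.2)) (by
        linear_combination hn n * (cy (s y.2))⁻¹ * cy_inv (s (p g y.2)) -
          hn n * (cy (s (p g y.2)))⁻¹ * cy g * cy_inv (s y.2))⟩ (fun _ _ => O_z _)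
      fun g m y _ => by rw [hAv g m, hW g m]
  have ku : ∀ {α : Un M} {a : SL Qb M → ℤ} {u : F}, Rt (ov Γ H) (ic M (xc (hn n))) α a →
      vv (pp ^ n • α) = algebraMap F M u → (∀ P ∈ Y, ord P (vv α) = 0) → _ := fun {α a u} ha hu h0 =>
    ku_of (n := n) (a := fun y => Φ.e (vl y.1 ((σ (s y.2)).1 u)))
      (β := fun y => Φ.e (vl (rp y.1) (vv (r y.2 • α))))
      (κ := fun g y => a (ta r (fun x => p (rq x)) (lf (lt g) (rp y.1)) y.2) *
        (cy (s (p g y.2)) * hn n)) d (fun y l => by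
      have k := root A L h0 hu (hr y.2).1 (hR _ (hp _ (ms.1 l)).1)
      rw [(hp _ (ms.1 l)).2, (hr _).2] at k
      exact ⟨(map_ne_zero _).2 k.1, hA _, by rw [← map_pow, k.2]⟩) fun g m y l => by
      have k := lf_mem A ρ (lo g m) (hp _ (ms.1 l)).1
      have f := move A t hr ha h0 k.1 (hR _ (hp _ (ms.1 l)).1) y.2
      rw [k.2, l2, ← rm g m _ (ms.1 l)] at f
      exact ⟨O_of (O_mul (O_z _) (O_cy _)) (by
        rw [mul_left_comm, mul_left_comm ((pp : K) ^ n), hn_mul, mul_one]),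
        by rw [Φ.emb g m, f, map_mul]⟩
  obtain ⟨G1, k, K1, e1⟩ := ku ha hu fun P l => (h0 P l).1
  obtain ⟨G2, l, K2, e2⟩ := ku hb hv fun P l => (h0 P l).2
  have cc : ∀ x ∈ ov Γ Φ.D, ∀ y ∈ Γ, rq y = rq x → c y = c x := fun x m y m' e => by
    rw [← cN x m _ (L.ker _ (mul_mem (inv_mem m.1) m') (by
      rw [map_mul, map_inv, e, inv_mul_cancel])), mul_inv_cancel_left]
  have cx : ∀ g ∈ Φ.D, xc (invFun xc (c (lt g))) = c (lt g) := fun g m =>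
    invFun_eq ((Ew.X_onto (c2 _ (lo g m))).elim fun _ k => ⟨_, k.symm⟩)
  have lc : Lc Φ.D fun g => c (lt g) := Lc.of_nhds (L.ev A q cs) fun g m w m' ⟨θ, k1, k2, k3⟩ => by
    have o : θ ∈ ov Γ Φ.D := ⟨k1, Subgroup.mem_comap.2 (k2.symm ▸ m')⟩
    rw [← k3 o _ (lo g m)]
    exact cc _ (mul_mem (lo g m) o) _ (l1 _) (by rw [map_mul, l2, l2, k2])
  have z' := Sy.Fd.z2 d tw G1 G2 K1 K2
  have i := (Φ.iv.add _ _ z z').symm.trans (Φ.iv.cob _ (Sy.z2_add z z')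
    ⟨fun g => invFun xc (c (lt g)), (lc.two lc fun y _ => invFun xc y).cont, fun g m h m' => ?_⟩)
  · rw [← Sy.Fd.sym_eq d tw G1 G2 K1 K2] at i
    rw [eq_neg_of_add_eq_zero_left i, neg_smul_neg,
      ← Sy.Fd.sym_smul d tw G1 G2 (O_z e) (by rw [sub_self, mul_zero]; exact zero_mem _)]
    congr 1
    funext y
    push_cast
    ring
  have f := key _ (lo g m) _ (lo h m')
  rw [cc _ (lo _ (mul_mem m m')) _ (mul_mem (l1 g) (l1 h)) (by rw [map_mul, l2, l2, l2]),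
    ← cx g m, ← cx h m', ← cx _ (mul_mem m m'), xc_sm, l2, l2] at f
  rw [← xc_eq, d2, map_add, map_add, map_sub, add_comm (_ - _), ← add_sub_assoc, ← f,
    add_right_inj, Sy.cup, Finset.sum_product, map_sum]
  refine Finset.sum_of_injOn rp (fun Q a Q' a' e => (hp Q a).2.symm.trans (e ▸ (hp Q' a').2))
    (fun Q a => (hp Q a).1) (fun P a a' => ?_) fun Q a => ?_
  · rw [Finsupp.notMem_support_iff.1 fun o => a' ⟨_, o, inj q ρ (hp _ o).1 a (hp _ o).2⟩, zero_smul]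
  have k1 := lf_mem A ρ (lo h m') (hp Q a).1
  have k2 := lf_mem A ρ (lo g m) (hp _ (sm h m' Q a)).1
  rw [(hp Q a).2, ← rm h m' Q a, cw2, Finset.smul_sum, map_sum]
  refine Finset.sum_congr rfl fun i _ => ?_
  rw [cp, sm_z, xc_sm, (hr _).2, ← map_zsmul, ← map_zsmul, ← map_zsmul, xc_eq, k1.2, k2.2, l2, l2]
  have := alg (O_z (Av Q * W i)) (O_inv _) (O_z _) (O_z _) (O_cy _) (O_cy g) (cy_inv _)
    (e1 g m (σ h • Q, p h i) (ms.2 (sm h m' Q a))) (e2 h m' (Q, i) (ms.2 a)) (cy_ta hζ t g (p h i))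
  refine O_of this ?_
  simp only [hAv g m, hAv h m', hW g m, hW h m', zsmul_eq_mul]
  push_cast
  ring

end Vale.Agent.P014U.Ev
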