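import Vale.Agent.P014U.Ev.St
import Vale.Agent.P014U.Ev.Out
import Vale.Agent.P014U.Pu.Wk
import Vale.Agent.P014T.Ev.Evp

/-! # P014U: the evaluation of the pairing (helper84) -/

set_option linter.all false

open scoped Classical

noncomputable section

namespace Vale.Agent.P014U.Ev

export Vale.Agent.P014T.Ev (cw_sm geo rq_td sm_ga ew_eq)

open Vale.Agent.P019P P025H492 P025H816 P027M.K Vale.Agent.P004H.H666 P014T.Kc P014T.Pu Function Filter Topology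
open P014T.Ts hiding sub_zero ev
open Vale.Agent.P022 (Qb GQ)
open Vale.Agent.P014U.X4S.Ga (K O)
open Vale.Agent.P014U.X4S.Aq (cy O_of O_mul)
open Vale.Agent.P014U.X4F.Rc (hn hn_mul)
open Vale.Agent.P004M.TE (Pt ga)

variable [Pp]

theorem ex_odd (u : ℤ_[pp]ˣ) (n : ℕ) :
    ∃ k : ℕ, ¬ pp ∣ k ∧ hn n * (k * ((u : ℤ_[pp]) : K) - 1) ∈ O := by
  refine ⟨ap ((u⁻¹ : ℤ_[pp]ˣ) : ℤ_[pp]) (n + 1), (Nat.Prime.coprime_iff_not_dvd pp_prime).1
    (((ZMod.isUnit_iff_coprime _ (pp ^ 1)).1 (by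
      rw [cast_ap (l := pp) _ (Nat.le_add_left 1 n)]
      exact (u⁻¹).isUnit.map _)).symm.coprime_dvd_left (dvd_pow_self pp one_ne_zero)),
    O_of (O_mul (O_mul (Ew.ap_O (n + 1) (u⁻¹ : ℤ_[pp]ˣ)) (u : ℤ_[pp]).2) (Sy.O_z pp)) ?_⟩
  have : (((u⁻¹ : ℤ_[pp]ˣ) : ℤ_[pp]) : K) * (u : ℤ_[pp]) = 1 := by
    rw [← PadicInt.coe_mul, Units.inv_mul, PadicInt.coe_one]
  rw [← Sy.hn_add n 1]
  push_cast
  linear_combination hn (n + 1) * pp * this

/-- **evaluation of the pairing** -/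
theorem evp : EVP := by
  intro A B hD n
  obtain ⟨u0, hu⟩ := Pu.eQ_wp hD
  obtain ⟨k, o, hk⟩ := ex_odd u0 n
  refine ⟨-k, fun e => o (by exact_mod_cast dvd_neg.1 e), ?_⟩
  rintro F C _ _ _ _ _ Φ σ H j x y u v nn z J _ s p W R t R' f Av hA tr ⟨Q0, cu⟩ fx hH hζ
    ⟨M, _, _, _, _, _, _, Γ, N, α, β, A0, q, L, c0, ra, rb, un, a, b, ha, hb, kc⟩ T hW hR ht t0 t1 hs f0 ff
    iv fc fd
  choose r hr using fun i => L.sur (s i)
  have T' : Tr Γ (ov Γ H) r fun x => p (rq x) := ⟨inf_le_left, fun i => (hr i).1,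
    fun x l i => Ou.ta_ov T hr l i, fun i j l => T.un i j (by
      rw [← (hr i).2, ← (hr j).2, ← map_inv, ← map_mul]; exact l.2)⟩
  have hξ : Fx Γ (mq (algebraMap F M) (pt nn)) := fun θ l => by
    rw [show mq (algebraMap F M) (pt nn) = pt _ from mp_some _ _ _ nn]
    exact mp_id _ _ _ _ ((L.up θ l x).trans (congrArg _ (fx _).1))
      ((L.up θ l y).trans (congrArg _ (fx _).2))
  have Fr := A0.frame hD hξ c0
  have Z : Ze (ov Γ H) (dY (Yo M j)) (pp ^ n) (ic M (xc (hn n))) :=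
    ⟨fun θ l => (ic_sm θ _).trans (congrArg _ (Units.ext (hζ _ l.2))), by
      rw [← map_nsmul, ← map_nsmul, ← map_zero (ic (k := Qb) M), ← map_zero xc, xc_eq.2]
      exact O_of (Sy.O_z 1) (by rw [nsmul_eq_mul, sub_zero, Nat.cast_pow, hn_mul, Int.cast_one]),
      dY_cu _ _⟩
  have hw : ∀ x ∈ ov Γ Φ.D, ∀ i, W (p (rq x) i) = W i := fun x l => hW _ l.2
  have A1 := fm_ov A0 Φ.D
  have Ω := Om.trW T' inf_le_left hw Fr.eq (cp_om Z ha hb)
  have K := P014T.Kc.Kc.trW T' inf_le_left hw Fr (fm_ov A0 H).le A1.le (cp_om Z ha hb) kc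
  obtain ⟨zw, ez⟩ : ∃ zw : GQ → Pt A B,
    zw = fun g => ∑ i, W i • ga (s (p g i)) (z (ta s p g i)) := ⟨_, rfl⟩
  have e1 : cw1 (A := Ep Qb A B) W r (fun x => p (rq x)) (fun θ => z (rq θ)) = fun θ => zw (rq θ) := by
    rw [ez]
    exact funext fun θ => Finset.sum_congr rfl fun i _ => congrArg (W i • ·) ((sm_ga _ _).trans (by
      simp only [ta, map_mul, map_inv, (hr _).2]; rfl))
  have e2 : ∀ x y, cw2 W r (fun x => p (rq x)) (cp (ic M (xc (hn n))) a b) x y =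
      ic M (cw2 W r (fun x => p (rq x)) (cp (xc (hn n)) a b) x y) := fun x y => by
    simp only [cw2, cp, map_sum, map_zsmul, ← ic_sm]
  rw [e1] at K
  rw [funext₂ e2] at K Ω
  rw [← ez]
  have lo : ∀ g ∈ Φ.D, ∃ θ ∈ ov Γ Φ.D, rq θ = g := fun g l =>
    let ⟨θ, i, e⟩ := L.sur g
    ⟨θ, ⟨i, Subgroup.mem_comap.2 (e.symm ▸ l)⟩, e⟩
  have Fr' := Fr.mono inf_le_left A1.le
  have co : ∀ g ∈ Φ.D, ∀ h ∈ Φ.D, zw (g * h) = zw g + ga g (zw h) := fun g l h l' => by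
    obtain ⟨θ, i, rfl⟩ := lo g l
    obtain ⟨θ', i', rfl⟩ := lo h l'
    rw [← map_mul]
    exact (K.coc Fr' Ω i i').trans (congrArg _ (sm_ga _ _))
  have z0 : ∀ᶠ g in 𝓝 (1 : GQ), z g = 0 := by
    filter_upwards [hH, L.ev A0 q (Fm.lc hD (fm_ov A0 H) (fun θ l => hξ θ l.1) c0 Z
      ⟨a, b, ha, hb, kc⟩ fun f _ => nb_el f)] with g l ⟨θ, i, e, h⟩
    exact e ▸ h ⟨i, Subgroup.mem_comap.2 (e.symm ▸ l)⟩
  have z1 : ∀ᶠ g in 𝓝 (1 : GQ), zw g = 0 := by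
    filter_upwards [eventually_all.2 (Ou.ev_p hH T), eventually_all.2 fun i =>
      (((continuous_const.mul continuous_id).mul continuous_const).tendsto' (1 : GQ) 1
        (by simp : (s i)⁻¹ * id 1 * s i = 1)).eventually z0] with g e e'
    rw [ez]
    exact Finset.sum_eq_zero fun i _ => by
      rw [ta, e i, show z ((s i)⁻¹ * g * s i) = 0 from e' i, map_zero]
      exact zsmul_zero _
  have zn : Cp.Zn Φ.D n zw := ⟨(IsLocallyConstant.iff_eventually_eq _).2 fun g =>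
      (eventually_nhds_subtype_iff (Φ.D : Set GQ) g fun h => zw h = zw g).2 (Sy.Lc.of_nhds z1
        (fun g l w l' e => by rw [co g l w l', show zw w = 0 from e, map_zero, add_zero]) g g.2), co,
    fun g l => by
      obtain ⟨θ, i, rfl⟩ := lo g l
      exact K.tor Fr' Ω i⟩
  have zd : Cp.Zn Φ.D n (Bt.dd A B R') := Cp.zn_dd (hs.symm ▸ hR)
  have z2 := Cp.cp_z2 (Ki.pr hD) zd zn
  have z3 := Sy.z2_smul z2 (c := (u0 : ℤ_[pp])) (u0 : ℤ_[pp]).2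
  obtain ⟨P0, rfl⟩ := exists_over (L := M) Q0
  obtain ⟨R0, lf, c, ρ, h1, h2, h3, h4, h5, key⟩ := geo hD tr A1 q ((L.cq A0 q).mono inf_le_left)
    ⟨P0, fun l => cu ((mem_down _ _).2 l)⟩ (fun θ l => hξ θ l.1) c0 (pow_ne_zero n pp_ne) Ω (by
      filter_upwards [rq_td.eventually (eventually_all.2 (Ou.ev_p hH T)),
        eventually_all.2 fun i => nb_un (r i • α), eventually_all.2 fun i => nb_un (r i • β)]
        with v a1 a2 a3 l x i y i'
      have := cw_sm W T' ha hb l.1 a1 a2 a3 i.1 i'.1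
      simp only [e2] at this
      exact ⟨ic_inj this.1, ic_inj this.2⟩) K (s := R) (t := t) (s' := R')
    (fun θ l => (sm_ga θ _).trans (hR _ l.2)) (fun θ l => (sm_ga θ _).trans (ht _ l.2)) t0 t1 hs f0
    (fun θ l => (L.up θ l.1 f).trans (congrArg _ (ff _ l.2)))
    (fun P l => (fc _ fun i => l ((mem_down _ _).1 i)).1) (fun P l => (fc _ fun i => l ((mem_down _ _).1 i)).2)
    (fun P l => fd _ ((mem_down _ _).2 l)) fun θ l P => by rw [Ou.dn L l.1, iv _ l.2]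
  refine ⟨zn, Eq.trans ?_ (out F M C Φ σ Γ N _ n H J s p W r α β a b u v Av R0 lf c _ hA A0 q L hH hζ T hW
    hr ha hb ra rb un iv ρ h1 h2 h3 h4 h5 z3 (fun x i y i' => ?_) _)⟩
  · rw [neg_neg, natCast_zsmul, ← Φ.iv.nat z3]
    refine Φ.iv.congr z2 (Sy.z2_smul z3 (Sy.O_z k)) fun g _ h _ =>
      O_of (neg_mem (O_mul hk (Ki.wp_lev hD n (Bt.dd A B R' g) (ga g (zw h))))) ?_
    rw [Cp.cp]
    linear_combination (k * ((u0 : ℤ_[pp]) : ℚ_[pp]) - 1) * Ki.wp hD n (Bt.dd A B R' g) (ga g (zw h)) * hn_mul n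
  · rw [← key x i y i']
    exact congrArg (· + _) ((hu n _ _ (zd.tr _ i.2) (Ki.tor_map (zn.tr _ i'.2) _)).symm.trans
      (ew_eq hD _ _ _ _))

end Vale.Agent.P014U.Ev
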