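import Vale.Agent.P014U.Ev.Pk
import Vale.Agent.P014T.Ts.Z

/-! # P014U: from the class on a level to the frame over the absolute Galois group (helper84) -/

set_option linter.all false

open scoped Classical

noncomputable section

namespace Vale.Agent.P014U.Ev

open Vale.Agent.P019P P025H492 P027M.K P014T.Kc Filter Topology
open P014T.Ts hiding sub_zero ev
open Vale.Agent.P022 (Qb GQ)
open Vale.Agent.P014U.X4F.Rc (hn)

variable [Pp] {F Ω : Type} [Field F] [Field Ω] [Algebra Qb F] [Algebra Qb Ω] [CFF Qb F] [IsAlgClosed Ω]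
  {a b : ℚ} {hD : 4 * a ^ 3 + 27 * b ^ 2 ≠ 0}

/-- **the bridge** -/
theorem br0 (μ : F →ₐ[Qb] Ω) {F₀ : IntermediateField Qb Ω} (hF : ∀ x, x ∈ F₀ ↔ ∃ y, μ y = x)
    {σ : GQ →* SL Qb F} (h1 : ∀ g, rq (σ g) = g) (sm : ∀ y, ∀ᶠ g in 𝓝 (1 : GQ), (σ g).1 y = y)
    (up : ∀ g, ∃ θ, Rs (μ : F →+* Ω) θ (σ g)) {H₀ H : Subgroup (SL Qb Ω)} {D : Subgroup GQ}
    (hT : ∀ θ, θ ∈ H₀ ↔ ∃ g, Rs (μ : F →+* Ω) θ (σ g))
    (hH : ∀ θ, θ ∈ H ↔ ∃ g ∈ D, Rs (μ : F →+* Ω) θ (σ g)) {j : F} (L : Lev (μ j) F₀ H₀)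
    (op : IsOpen (D : Set GQ)) {ξ : Pm F a b}
    {n : ℕ} {α β : Un Ω} {z' : SL Qb Ω → Ep Qb a b} {u v : F} (ha : vv (pp ^ n • α) = μ u)
    (hb : vv (pp ^ n • β) = μ v) (ua : Dm Qb (μ j) (μ u) ∧ Dm Qb (μ j) (μ u)⁻¹)
    (ub : Dm Qb (μ j) (μ v) ∧ Dm Qb (μ j) (μ v)⁻¹) (h : Zc hD (μ j) F₀ H (mq (μ : F →+* Ω) ξ)
      (pp ^ n) (Additive.toMul (α := Qbˣ) (xc (hn n))) α β z') {z : GQ → Ep Qb a b}
    (hz : ∀ θ ∈ H, z (rq θ) = z' θ) : Pk hD σ D j ξ n u v z := by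
  have rθ : ∀ {θ g}, Rs (μ : F →+* Ω) θ (σ g) → rq θ = g := fun {θ g} r => by
    rw [← h1 g]
    exact AlgEquiv.ext fun c => DFunLike.congr_fun (r.res μ.commutes).symm c
  have le : H ≤ H₀ := fun θ l => let ⟨g, _, r⟩ := (hH θ).1 l; (hT θ).2 ⟨g, r⟩
  choose t ht using up
  have := D.quotient_finite_of_isOpen op
  let s : GQ ⧸ D → GQ := Quotient.out
  have ex : ∀ g, ∃ i, (s i)⁻¹ * g ∈ D := fun g => ⟨g, QuotientGroup.eq.1 (Quotient.out_eq' _)⟩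
  obtain ⟨B, M', _, A', h⟩ := h
  obtain ⟨M, A, -, l⟩ := L.adm.nc L B.lv le_rfl A' (r := fun i => t (s i))
    (fun i => (hT _).2 ⟨_, ht _⟩) fun x l => by
      obtain ⟨g, r⟩ := (hT x).1 l
      exact (ex g).imp fun i e => (hH _).2 ⟨_, e, by
        rw [map_mul, map_inv]; exact (ht _).inv.mul r⟩
  have c := A.cff L
  obtain ⟨ξ', α', β', w, e, rfl, rfl, S, f⟩ := h.up B A' (A.mono le le_rfl A.le) l
  let _ : Algebra F M := ((μ : F →+* Ω).codRestrict M fun y => A.le ((hF _).2 ⟨y, rfl⟩)).toAlgebra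
  have : IsScalarTower Qb F M := .of_algebraMap_eq fun c => Subtype.ext (μ.commutes c).symm
  have : FiniteDimensional F M := finite_of_transcendental (k := Qb) (x := j)
    fun e => L.tr (e.algHom μ)
  obtain rfl : ξ' = mq (algebraMap F M) ξ :=
    mq_inj (io M) (e.trans (mq_mq _ _ _ (fun _ => rfl) ξ).symm)
  have rM : ∀ {θ n}, Rs (io M) θ n → rq n = rq θ := fun r =>
    AlgEquiv.ext fun c => DFunLike.congr_fun (r.res fun _ => rfl) c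
  have ur : ∀ n ∈ im (io M) H₀, Rs (algebraMap F M) n (σ (rq n)) := fun n ⟨θ, l, r⟩ y => by
    obtain ⟨g, r'⟩ := (hT θ).1 l
    rw [rM r, rθ r']
    exact Subtype.ext ((r' y).trans (r (algebraMap F M y)).symm)
  have o : ov (im (io M) H₀) D = im (io M) H := le_antisymm (fun n ⟨⟨θ, l, r⟩, l'⟩ => by
    obtain ⟨g, r'⟩ := (hT θ).1 l
    exact ⟨θ, (hH θ).2 ⟨g, rθ r' ▸ rM r ▸ l', r'⟩, r⟩) fun n ⟨θ, l, r⟩ => ⟨⟨θ, le l, r⟩, by
      obtain ⟨g, l', r'⟩ := (hH θ).1 l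
      exact show rq n ∈ D from (rM r).symm ▸ (rθ r').symm ▸ l'⟩
  obtain ⟨g1, g2⟩ := A.gal L
  have y : Yo M j = Yj M (μ j) := Set.ext fun P => (mem_yj (A.le L.jm)).symm
  have un : ∀ {α : Un M} {u}, vv (pp ^ n • mu (io M) α) = μ u →
      Dm Qb (μ j) (μ u) ∧ Dm Qb (μ j) (μ u)⁻¹ → vv (pp ^ n • α) = algebraMap F M u ∧
      ∀ P ∈ Yj M (μ j), ord P (vv α) = 0 := fun {α u} e d => by
    have e' : vv (pp ^ n • α) = algebraMap F M u := Subtype.ext (by rwa [← map_nsmul] at e)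
    refine ⟨e', fun P l => ?_⟩
    have a := ord_nonneg_of_mem P (d.1.sub (A.le L.jm) l (algebraMap F M u) rfl)
    have b := ord_nonneg_of_mem P (d.2.sub (A.le L.jm) l (algebraMap F M u)⁻¹ rfl)
    rw [ord_inv] at b
    have : ord P (algebraMap F M u) = 0 := by omega
    rw [← e', vv_nsmul, ord_pow] at this
    simpa [pp_ne] using this
  refine ⟨M, _, _, c, _, ‹_›, ‹_›, im (io M) H₀, im (io M) (Fi F₀), α', β', y ▸ A.fm L,
    ⟨fun x => ⟨fun h => ?_, ?_⟩, fun P l => ?_, fun P Q e => g2 P Q fun x l => ?_⟩, ⟨h1, fun n l y => (ur n l y).symm, fun g =>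
      ⟨_, A.st.mem le_rfl ((hT _).2 ⟨g, ht g⟩), (rM (A.st.rs ((hT _).2 ⟨g, ht g⟩))).trans
        (rθ (ht g))⟩, fun n ⟨θ, l, r⟩ e => ⟨θ, fun x l' => ?_, r⟩, sm⟩, y ▸ B.cs A.le e,
    (un ha ua).1, (un hb ub).1, y ▸ fun P l => ⟨(un ha ua).2 P l, (un hb ub).2 P l⟩,
    y ▸ o ▸ S.cob 0 (smul_zero _) fun n ⟨θ, l, r⟩ => by simp [rM r, hz θ l, f θ l, r.eq]⟩
  · obtain ⟨y, e⟩ := (hF _).1 (L.mem fun θ l => (A.st.rs (L.le l) x).symm.trans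
      (congrArg _ (h _ (A.st.mem L.le l))))
    exact ⟨y, Subtype.ext e⟩
  · rintro ⟨y, rfl⟩ n ⟨θ, l, r⟩
    exact Subtype.ext ((r _).trans (l _ ((hF _).2 ⟨y, rfl⟩)))
  · obtain ⟨x, l, e⟩ := g1 P (y ▸ l)
    obtain ⟨y, e'⟩ := (hF _).1 l
    exact ram_eq_one_of_exists (z := y) ((show algebraMap F M y = x from Subtype.ext e') ▸ e)
  · obtain ⟨y, e'⟩ := (hF _).1 l
    rw [← show algebraMap F M y = x from Subtype.ext e', ← mem_down, ← mem_down, e]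
  · obtain ⟨g, r'⟩ := (hT θ).1 l
    obtain ⟨y, rfl⟩ := (hF _).1 l'
    obtain rfl : g = 1 := (rθ r').symm.trans ((rM r).symm.trans e)
    rw [map_one] at r'
    exact (r' y).symm

end Vale.Agent.P014U.Ev
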