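import Vale.Agent.P014T.Ev.Lk
import Vale.Agent.P014U.Ew.Cmp
import Vale.Agent.P014U.Sy.Wt

/-! # P014U: the link with the absolute Galois group (helper84) -/

set_option linter.all false

open scoped Classical

noncomputable section

namespace Vale.Agent.P014U.Ev

export Vale.Agent.P014T.Ev (Cs ic od wn cs_sm ic_sm ic_inj od_dY val_down Qt rq rq_apply rq_spec
  rq_eq rq_one ov Lk fm_ov)

open Vale.Agent.P019P P025H492 P027M.K P014T.Kc Function Filter Topology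
open P014T.Ts hiding sub_zero ev
open Vale.Agent.P022 (Qb GQ)
open Vale.Agent.P014U.X4S.Ga (K O Z2)
open Vale.Agent.P014U.X4S.Aq (cy)
open Vale.Agent.P014U.X4F.Rc (hn)

variable [Pp] {F M : Type} [Field F] [Field M] [Algebra Qb F] [Algebra Qb M]

/-- the exponential -/
def xc : K →+ Cs Qb := Ew.X

theorem xc_eq {x y : K} : xc x = xc y ↔ x - y ∈ O := Ew.X_eq

theorem xc_sm (θ : SL Qb M) (x : K) : θ • xc x = xc (cy (rq θ) * x) :=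
  Units.ext (Sy.ex_cy (rq θ) x)

/-- **from the evaluation formula to the symbol** -/
def OUT : Prop := ∀ (F M C : Type) [Field F] [Field M] [Field C] [IsAlgClosed C] [Algebra Qb F]
  [Algebra Qb M] [Algebra F M] [IsScalarTower Qb F M] [CFF Qb F] [CFF Qb M] [FiniteDimensional F M]
  (Φ : Sy.Fd C) (σ : GQ →* SL Qb F) (Γ N : Subgroup (SL Qb M)) (Y : Set (Plk Qb M)) (n : ℕ)
  (H : Subgroup GQ) (J : Type) [Fintype J] (s : J → GQ) (p : GQ → J → J) (W : J → ℤ)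
  (r : J → SL Qb M) (α β : Un M) (a b : SL Qb M → ℤ) (u v : F) (Av : Plk Qb F →₀ ℤ)
  (R : Finset (Plk Qb M)) (lf : SL Qb M → Plk Qb M → SL Qb M) (c : SL Qb M → Cs Qb)
  (E : GQ → GQ → K), (∀ x, Φ.e x ∈ Φ.A) → Fm Γ N Y → Qt N Y F → Lk σ Γ N →
  (H : Set GQ) ∈ 𝓝 (1 : GQ) → (∀ g ∈ H, g (Sy.ex (hn n)) = Sy.ex (hn n)) → Tr ⊤ H s p →
  (∀ g ∈ Φ.D, ∀ i, W (p g i) = W i) → (∀ i, r i ∈ Γ ∧ rq (r i) = s i) →
  Rt (ov Γ H) (ic M (xc (hn n))) α a → Rt (ov Γ H) (ic M (xc (hn n))) β b →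
  vv (pp ^ n • α) = algebraMap F M u → vv (pp ^ n • β) = algebraMap F M v →
  (∀ P ∈ Y, ord P (vv α) = 0 ∧ ord P (vv β) = 0) → (∀ g ∈ Φ.D, ∀ Q, Av (σ g • Q) = Av Q) →
  Rp (ov Γ Φ.D) N R lf → (∀ P ∈ R, P ∈ Y) → (∀ Q ∈ Av.support, ∃ P ∈ R, down F P = Q) →
  (∀ x ∈ ov Γ Φ.D, pp ^ n • c x = 0) → (∀ x ∈ ov Γ Φ.D, ∀ y ∈ N, c (x * y) = c x) →
  (∀ᶠ y in nb Qb M, y ∈ ov Γ Φ.D → ∀ x ∈ ov Γ Φ.D, c (x * y) = c x) → Z2 cy Φ.D E →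
  (∀ x ∈ ov Γ Φ.D, ∀ y ∈ ov Γ Φ.D, xc (E (rq x) (rq y)) + ∑ P ∈ R, Av (down F P) •
    cw2 W r (fun x => p (rq x)) (cp (xc (hn n)) a b) (lf x (lf y P • P)) (lf y P) =
      c x + x • c y - c (x * y)) →
  ∀ e : ℤ, (-e) • Φ.ι E = Φ.sym (fun g (y : Plk Qb F × J) => (σ g • y.1, p g y.2))
    (Av.support ×ˢ Finset.univ) n (fun y => (e * Av y.1 * W y.2 : ℤ) * (cy (s y.2))⁻¹)
    (fun y => Φ.e (vl y.1 ((σ (s y.2)).1 u))) fun y => Φ.e (vl y.1 ((σ (s y.2)).1 v))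

end Vale.Agent.P014U.Ev
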